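import Mathlib

/-!
P079, helper: weak compactness in a reflexive space, weakly convergent subsequences when there is
an unconditional expansion, and minimal invariant sets of a nonexpansive map.
-/

open Set Filter Topology

namespace Vale.Agent.P079

variable {X : Type*} [NormedAddCommGroup X] [NormedSpace ℝ X]

/-- In a reflexive space a closed bounded convex set is weakly compact. -/
lemma weak_compact (hsurj : Function.Surjective (NormedSpace.inclusionInDoubleDual ℝ X))
    {C : Set X} (hc : IsClosed C) (hv : Convex ℝ C) (hb : Bornology.IsBounded C) :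
    IsCompact (toWeakSpace ℝ X '' C) := by
  have hclosure : closure (toWeakSpace ℝ X '' C) = toWeakSpace ℝ X '' C := by
    rw [← hv.toWeakSpace_closure ℝ, hc.closure_eq]
  rw [← hclosure]
  apply NormedSpace.isCompact_closure_of_isBounded
  · rwa [Set.preimage_image_eq _ (toWeakSpace ℝ X).injective]
  · intro w _
    obtain ⟨x, hx⟩ := hsurj (WeakDual.toStrongDual w)
    refine ⟨toWeakSpace ℝ X x, ?_⟩
    apply WeakDual.toStrongDual.injective
    rw [← hx]
    ext f
    rfl

/-- A closed convex set is weakly closed. -/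
lemma weak_closed {C : Set X} (hc : IsClosed C) (hv : Convex ℝ C) :
    IsClosed (toWeakSpace ℝ X '' C) := by
  rw [← hc.closure_eq, hv.toWeakSpace_closure ℝ]
  exact isClosed_closure

/-- A functional is continuous for the weak topology. -/
lemma dual_continuous (g : StrongDual ℝ X) :
    Continuous fun w : WeakSpace ℝ X => g ((toWeakSpace ℝ X).symm w) :=
  WeakBilin.eval_continuous (topDualPairing ℝ X).flip g

/-- With an unconditional expansion, a bounded sequence in a weakly compact set has a weakly
convergent subsequence. -/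
lemma exists_weak_subseq {ι : Type*} (e : ι → X) (f : ι → StrongDual ℝ X)
    (hexp : ∀ x, HasSum (fun i => f i x • e i) x)
    {C : Set X} (hK : IsCompact (toWeakSpace ℝ X '' C)) (hb : Bornology.IsBounded C)
    (x : ℕ → X) (hx : ∀ k, x k ∈ C) :
    ∃ z ∈ C, ∃ φ : ℕ → ℕ, StrictMono φ ∧
      ∀ g : StrongDual ℝ X, Tendsto (fun k => g (x (φ k))) atTop (𝓝 (g z)) := by
  classical
  obtain ⟨B, hB⟩ := hb.exists_norm_le
  set J : Set ι := ⋃ k, Function.support fun i => f i (x k) • e i with hJ
  have hJc : J.Countable := countable_iUnion fun k => (hexp (x k)).summable.countable_support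
  have := hJc.to_subtype
  have hbox : IsCompact (Set.pi univ fun j : J => Icc (-(‖f j‖ * B)) (‖f j‖ * B)) :=
    isCompact_univ_pi fun j => isCompact_Icc
  obtain ⟨l, -, φ, hφ, hl⟩ := hbox.tendsto_subseq (x := fun k (j : J) => f j (x k)) (fun k j _ => by
    rw [mem_Icc, ← abs_le]
    calc |f j (x k)| ≤ ‖f j‖ * ‖x k‖ := (f j).le_opNorm _
      _ ≤ ‖f j‖ * B := mul_le_mul_of_nonneg_left (hB _ (hx k)) (norm_nonneg _))
  rw [tendsto_pi_nhds] at hl
  set w : ℕ → WeakSpace ℝ X := fun k => toWeakSpace ℝ X (x (φ k)) with hw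
  have hmem : ∀ k, w k ∈ toWeakSpace ℝ X '' C := fun k => mem_image_of_mem _ (hx _)
  have coord : ∀ y : X, MapClusterPt (toWeakSpace ℝ X y) atTop w →
      ∀ i, f i y • e i = if h : i ∈ J then l ⟨i, h⟩ • e i else 0 := by
    intro y hy i
    by_cases hi : i ∈ J
    · rw [dif_pos hi]
      have h1 : MapClusterPt (f i y) atTop (fun k => f i (x (φ k))) :=
        hy.continuousAt_comp (f := fun v => f i ((toWeakSpace ℝ X).symm v))
          (dual_continuous (f i)).continuousAt
      rw [eq_of_nhds_neBot (x := f i y) (y := l ⟨i, hi⟩)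
        (h1.neBot.mono (inf_le_inf_left _ (hl ⟨i, hi⟩)))]
    · rw [dif_neg hi]
      rcases eq_or_ne (e i) 0 with he | he
      · simp [he]
      · have h0 : ∀ k, f i (x k) = 0 := fun k => by
          by_contra hne
          exact hi (mem_iUnion.2 ⟨k, smul_ne_zero hne he⟩)
        have h1 : MapClusterPt (f i y) atTop (fun k => f i (x (φ k))) :=
          hy.continuousAt_comp (f := fun v => f i ((toWeakSpace ℝ X).symm v))
            (dual_continuous (f i)).continuousAt
        have h2 : Tendsto (fun k => f i (x (φ k))) atTop (𝓝 0) := by simp [h0]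
        rw [eq_of_nhds_neBot (x := f i y) (y := (0 : ℝ))
          (h1.neBot.mono (inf_le_inf_left _ h2))]
        simp
  obtain ⟨_, ⟨z, hz, rfl⟩, hzc⟩ :=
    hK.exists_mapClusterPt (f := atTop) (u := w) (tendsto_principal.2 (Eventually.of_forall hmem))
  have huniq : ∀ v ∈ toWeakSpace ℝ X '' C, MapClusterPt v atTop w → v = toWeakSpace ℝ X z := by
    rintro _ ⟨y, -, rfl⟩ hy
    congr 1
    refine (hexp y).unique ?_
    have : (fun i => f i y • e i) = fun i => f i z • e i := by
      funext i; rw [coord y hy i, coord z hzc i]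
    rw [this]; exact hexp z
  have hlim : Tendsto w atTop (𝓝 (toWeakSpace ℝ X z)) :=
    hK.tendsto_nhds_of_unique_mapClusterPt (Eventually.of_forall hmem) huniq
  exact ⟨z, hz, φ, hφ, fun g => ((dual_continuous g).tendsto _).comp hlim⟩

/-- A nonexpansive self map of a closed bounded convex set in a reflexive space leaves invariant
a minimal such subset. -/
lemma exists_minimal (hsurj : Function.Surjective (NormedSpace.inclusionInDoubleDual ℝ X))
    {C : Set X} (hc : IsClosed C) (hv : Convex ℝ C) (hb : Bornology.IsBounded C)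
    (hne : C.Nonempty) (T : X → X) (hT : MapsTo T C C) :
    ∃ S ⊆ C, IsClosed S ∧ Convex ℝ S ∧ S.Nonempty ∧ MapsTo T S S ∧
      ∀ D ⊆ S, IsClosed D → Convex ℝ D → D.Nonempty → MapsTo T D D → D = S := by
  set F : Set (Set X) :=
    {D | D ⊆ C ∧ IsClosed D ∧ Convex ℝ D ∧ D.Nonempty ∧ MapsTo T D D} with hF
  have hCF : C ∈ F := ⟨Subset.rfl, hc, hv, hne, hT⟩
  obtain ⟨S, -, hmin⟩ := zorn_superset_nonempty F (fun c hcF hchain hcne => by
    refine ⟨⋂₀ c, ⟨?_, ?_, ?_, ?_, ?_⟩, fun s hs => sInter_subset_of_mem hs⟩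
    · obtain ⟨s, hs⟩ := hcne
      exact (sInter_subset_of_mem hs).trans (hcF hs).1
    · exact isClosed_sInter fun s hs => (hcF hs).2.1
    · exact convex_sInter fun s hs => (hcF hs).2.2.1
    · have : Nonempty c := hcne.to_subtype
      obtain ⟨v, hv'⟩ := IsCompact.nonempty_iInter_of_directed_nonempty_isCompact_isClosed
        (fun s : c => toWeakSpace ℝ X '' (s : Set X))
        (by
          intro s t
          rcases hchain.total s.2 t.2 with h | h
          · exact ⟨s, Subset.rfl, image_mono h⟩
          · exact ⟨t, image_mono h, Subset.rfl⟩)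
        (fun s => (hcF s.2).2.2.2.1.image _)
        (fun s => (weak_compact hsurj (hcF s.2).2.1 (hcF s.2).2.2.1 (hb.subset (hcF s.2).1)))
        (fun s => weak_closed (hcF s.2).2.1 (hcF s.2).2.2.1)
      refine ⟨(toWeakSpace ℝ X).symm v, fun s hs => ?_⟩
      obtain ⟨y, hy, hyv⟩ := mem_iInter.1 hv' ⟨s, hs⟩
      rwa [← hyv, LinearEquiv.symm_apply_apply]
    · exact fun p hp s hs => (hcF hs).2.2.2.2 (hp s hs)) C hCF
  obtain ⟨h1, h2, h3, h4, h5⟩ := hmin.prop
  exact ⟨S, h1, h2, h3, h4, h5, fun D hD a b c d =>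
    Subset.antisymm hD (hmin.le_of_le ⟨hD.trans h1, a, b, c, d⟩ hD)⟩

end Vale.Agent.P079
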