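import Mathlib
import Vale.Agent.P079.Weak

/-!
P079, helper: approximate fixed points on a minimal invariant set (Garkavi's diametral lemma, the
Goebel-Karlovitz lemma, and the approximate fixed points of the contractions `(1-s)T + s p`).
-/

open Set Filter Topology Metric

namespace Vale.Agent.P079

variable {X : Type*} [NormedAddCommGroup X] [NormedSpace ℝ X]

/-- `S` is a minimal closed bounded convex invariant set of the nonexpansive map `T`. -/
structure MinimalSet (T : X → X) (S : Set X) : Prop where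
  closed : IsClosed S
  convex : Convex ℝ S
  bdd : Bornology.IsBounded S
  nonempty : S.Nonempty
  mapsTo : MapsTo T S S
  lip : ∀ a ∈ S, ∀ b ∈ S, ‖T a - T b‖ ≤ ‖a - b‖
  minimal : ∀ D ⊆ S, IsClosed D → Convex ℝ D → D.Nonempty → MapsTo T D D → D = S

variable {T : X → X} {S : Set X}

lemma MinimalSet.norm_sub_le (h : MinimalSet T S) {a b : X} (ha : a ∈ S) (hb : b ∈ S) :
    ‖a - b‖ ≤ diam S := by
  rw [← dist_eq_norm]
  exact dist_le_diam_of_mem h.bdd ha hb

/-- Every point of a minimal set is diametral. -/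
lemma MinimalSet.diametral (h : MinimalSet T S) {z : X} (hz : z ∈ S) {r : ℝ}
    (hr : ∀ v ∈ S, ‖z - v‖ ≤ r) : diam S ≤ r := by
  have hr0 : 0 ≤ r := le_trans (norm_nonneg _) (hr z hz)
  set D := closure (convexHull ℝ (T '' S)) with hD
  have hDS : D ⊆ S :=
    closure_minimal (convexHull_min h.mapsTo.image_subset h.convex) h.closed
  have hDe : D = S := h.minimal D hDS isClosed_closure (convex_convexHull ℝ _).closure
    ((h.nonempty.image T).mono ((subset_convexHull ℝ _).trans subset_closure))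
    (fun p hp => subset_closure (subset_convexHull ℝ _ (mem_image_of_mem T (hDS hp))))
  set A := {w ∈ S | ∀ v ∈ S, ‖w - v‖ ≤ r} with hA
  have hAeq : A = ⋂ v ∈ S, (S ∩ closedBall v r) := by
    ext w
    simp only [hA, mem_ofPred_eq, mem_iInter, mem_inter_iff, mem_closedBall, dist_eq_norm]
    exact ⟨fun hw v hv => ⟨hw.1, hw.2 v hv⟩, fun hw => ⟨(hw z hz).1, fun v hv => (hw v hv).2⟩⟩
  have hAS : A = S := by
    refine h.minimal A (fun w hw => hw.1) ?_ ?_ ⟨z, hz, hr⟩ ?_
    · rw [hAeq]
      exact isClosed_biInter fun v _ => h.closed.inter isClosed_closedBall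
    · rw [hAeq]
      exact convex_iInter₂ fun v _ => h.convex.inter (convex_closedBall _ _)
    · rintro w ⟨hw, hwr⟩
      refine ⟨h.mapsTo hw, fun v hv => ?_⟩
      have hsub : D ⊆ closedBall (T w) r := by
        refine closure_minimal (convexHull_min ?_ (convex_closedBall _ _)) isClosed_closedBall
        rintro _ ⟨v', hv', rfl⟩
        rw [mem_closedBall, dist_eq_norm, norm_sub_rev]
        exact (h.lip w hw v' hv').trans (hwr v' hv')
      have := hsub (hDe.symm ▸ hv)
      rwa [mem_closedBall, dist_eq_norm, norm_sub_rev] at this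
  refine diam_le_of_forall_dist_le hr0 fun a ha b hb => ?_
  rw [dist_eq_norm]
  exact (hAS.symm ▸ ha : a ∈ A).2 b hb

/-- Goebel-Karlovitz: approximate fixed point sequences have distance `diam S` to every point,
provided they have weakly convergent subsequences. -/
lemma MinimalSet.karlovitz (h : MinimalSet T S)
    (hsub : ∀ x : ℕ → X, (∀ k, x k ∈ S) → ∃ z ∈ S, ∃ φ : ℕ → ℕ, StrictMono φ ∧
      ∀ g : StrongDual ℝ X, Tendsto (fun k => g (x (φ k))) atTop (𝓝 (g z)))
    {y : X} (hy : y ∈ S) {η : ℝ} (hη : 0 < η) :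
    ∃ δ > 0, ∀ w ∈ S, ‖T w - w‖ ≤ δ → diam S - η ≤ ‖w - y‖ := by
  by_contra hcon
  push Not at hcon
  choose x hxS hxT hxy using fun k : ℕ => hcon (1 / ((k : ℝ) + 1)) (by positivity)
  set r := diam S - η with hr
  have hr0 : 0 ≤ r := le_trans (norm_nonneg _) (hxy 0).le
  obtain ⟨z, hz, φ, hφ, hweak⟩ := hsub x hxS
  set a := fun k => x (φ k) with ha
  have ht : Tendsto (fun k => ‖T (a k) - a k‖) atTop (𝓝 0) := by
    refine squeeze_zero (fun k => norm_nonneg _) (fun k => hxT (φ k)) ?_
    exact tendsto_one_div_add_atTop_nhds_zero_nat.comp hφ.tendsto_atTop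
  set L := {w ∈ S | ∀ ε > 0, ∀ᶠ k in atTop, ‖a k - w‖ ≤ r + ε} with hL
  have hLS : L = S := by
    refine h.minimal L (fun w hw => hw.1) ?_ ?_
      ⟨y, hy, fun ε hε => Eventually.of_forall fun k => by
        have := hxy (φ k); simp only [ha]; linarith⟩ ?_
    · rw [← closure_subset_iff_isClosed]
      intro w hw
      refine ⟨h.closed.closure_subset (closure_mono (fun v hv => hv.1) hw), fun ε hε => ?_⟩
      obtain ⟨v, hv, hvw⟩ := Metric.mem_closure_iff.1 hw (ε / 2) (by linarith)
      rw [dist_eq_norm] at hvw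
      filter_upwards [hv.2 (ε / 2) (by linarith)] with k hk
      calc ‖a k - w‖ = ‖(a k - v) + (v - w)‖ := by rw [sub_add_sub_cancel]
        _ ≤ ‖a k - v‖ + ‖v - w‖ := norm_add_le _ _
        _ ≤ r + ε := by rw [norm_sub_rev v w]; linarith
    · intro u hu v hv p q hp hq hpq
      refine ⟨h.convex hu.1 hv.1 hp hq hpq, fun ε hε => ?_⟩
      filter_upwards [hu.2 ε hε, hv.2 ε hε] with k hku hkv
      have e : a k - (p • u + q • v) = p • (a k - u) + q • (a k - v) := by
        rw [smul_sub, smul_sub]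
        conv_lhs => rw [← one_smul ℝ (a k), ← hpq, add_smul]
        abel
      rw [e]
      calc ‖p • (a k - u) + q • (a k - v)‖ ≤ p * ‖a k - u‖ + q * ‖a k - v‖ := by
            refine (norm_add_le _ _).trans (le_of_eq ?_)
            rw [norm_smul, norm_smul, Real.norm_of_nonneg hp, Real.norm_of_nonneg hq]
        _ ≤ p * (r + ε) + q * (r + ε) := by gcongr
        _ = r + ε := by rw [← add_mul, hpq, one_mul]
    · intro w hw
      refine ⟨h.mapsTo hw.1, fun ε hε => ?_⟩
      filter_upwards [hw.2 (ε / 2) (by linarith),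
        ht.eventually (eventually_le_nhds (show (0 : ℝ) < ε / 2 by linarith))] with k hk hk'
      calc ‖a k - T w‖ = ‖(a k - T (a k)) + (T (a k) - T w)‖ := by rw [sub_add_sub_cancel]
        _ ≤ ‖a k - T (a k)‖ + ‖T (a k) - T w‖ := norm_add_le _ _
        _ ≤ r + ε := by
          have := h.lip (a k) (hxS _) w hw.1
          rw [norm_sub_rev] at hk'
          linarith
  have hrad : ∀ v ∈ S, ‖z - v‖ ≤ r := by
    intro v hv
    have hvL : v ∈ L := hLS.symm ▸ hv
    refine NormedSpace.norm_le_dual_bound ℝ _ hr0 fun g => le_of_forall_pos_le_add fun ε hε => ?_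
    have hlim : Tendsto (fun k => ‖g (a k - v)‖) atTop (𝓝 ‖g (z - v)‖) := by
      simpa [map_sub] using ((hweak g).sub_const (g v)).norm
    refine le_of_tendsto hlim ?_
    filter_upwards [hvL.2 (ε / (‖g‖ + 1)) (by positivity)] with k hk
    have hd : ‖g‖ * (ε / (‖g‖ + 1)) ≤ ε := by
      rw [mul_div_assoc', div_le_iff₀ (by positivity)]
      nlinarith [norm_nonneg g]
    calc ‖g (a k - v)‖ ≤ ‖g‖ * ‖a k - v‖ := g.le_opNorm _
      _ ≤ ‖g‖ * (r + ε / (‖g‖ + 1)) := mul_le_mul_of_nonneg_left hk (norm_nonneg _)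
      _ ≤ r * ‖g‖ + ε := by rw [mul_add]; linarith
  have := h.diametral hz hrad
  linarith

/-- The fixed point of `(1-s)T + s p` is an `s`-approximate fixed point, and moves no more than
`p` up to the displacement of the point compared with. -/
lemma MinimalSet.resolvent [CompleteSpace X] (h : MinimalSet T S) {s : ℝ} (hs : 0 < s)
    (hs1 : s < 1) {p : X} (hp : p ∈ S) :
    ∃ u ∈ S, ‖T u - u‖ ≤ s * diam S ∧ u = (1 - s) • T u + s • p ∧
      ∀ x ∈ S, ‖u - x‖ ≤ ‖p - x‖ + (1 - s) / s * ‖T x - x‖ := by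
  have : CompleteSpace S := h.closed.completeSpace_coe
  have : Nonempty S := h.nonempty.to_subtype
  let R : S → S := fun u => ⟨(1 - s) • T u + s • p,
    h.convex (h.mapsTo u.2) hp (by linarith) hs.le (by ring)⟩
  have hR : ContractingWith (1 - s).toNNReal R := by
    refine ⟨by rw [Real.toNNReal_lt_one]; linarith, LipschitzWith.of_dist_le_mul fun a b => ?_⟩
    rw [Subtype.dist_eq, Subtype.dist_eq, dist_eq_norm, dist_eq_norm]
    simp only [R, add_sub_add_right_eq_sub, ← smul_sub, norm_smul]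
    rw [Real.norm_of_nonneg (by linarith : (0 : ℝ) ≤ 1 - s)]
    rw [Real.coe_toNNReal _ (by linarith : (0 : ℝ) ≤ 1 - s)]
    exact mul_le_mul_of_nonneg_left (h.lip a a.2 b b.2) (by linarith)
  set u := ContractingWith.fixedPoint R hR
  have hu : (1 - s) • T (u : X) + s • p = (u : X) :=
    congrArg Subtype.val hR.fixedPoint_isFixedPt
  refine ⟨u, u.2, ?_, hu.symm, fun x hx => ?_⟩
  · have e : T (u : X) - u = s • (T (u : X) - p) := by
      nth_rw 2 [← hu]
      rw [smul_sub, sub_smul, one_smul]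
      abel
    rw [e, norm_smul, Real.norm_of_nonneg hs.le]
    exact mul_le_mul_of_nonneg_left (h.norm_sub_le (h.mapsTo u.2) hp) hs.le
  · have e : (u : X) - x = (1 - s) • (T (u : X) - x) + s • (p - x) := by
      nth_rw 1 [← hu]
      rw [smul_sub, smul_sub, sub_smul, sub_smul, one_smul, one_smul]
      abel
    have h1 : ‖(u : X) - x‖ ≤ (1 - s) * ‖T (u : X) - x‖ + s * ‖p - x‖ := by
      conv_lhs => rw [e]
      refine (norm_add_le _ _).trans (le_of_eq ?_)
      rw [norm_smul, norm_smul, Real.norm_of_nonneg hs.le,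
        Real.norm_of_nonneg (by linarith : (0 : ℝ) ≤ 1 - s)]
    have h2 : ‖T (u : X) - x‖ ≤ ‖(u : X) - x‖ + ‖T x - x‖ := by
      calc ‖T (u : X) - x‖ = ‖(T (u : X) - T x) + (T x - x)‖ := by rw [sub_add_sub_cancel]
        _ ≤ ‖T (u : X) - T x‖ + ‖T x - x‖ := norm_add_le _ _
        _ ≤ _ := by gcongr; exact h.lip _ u.2 _ hx
    have h3 : s * ‖(u : X) - x‖ ≤ (1 - s) * ‖T x - x‖ + s * ‖p - x‖ := by
      have := mul_le_mul_of_nonneg_left h2 (by linarith : (0 : ℝ) ≤ 1 - s)
      nlinarith [h1, this]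
    rw [div_mul_eq_mul_div, ← sub_le_iff_le_add', le_div_iff₀ hs]
    nlinarith [h3]

end Vale.Agent.P079
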