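import Mathlib
import Vale.Agent.P079.Karlovitz

/-!
P079, helper: the fixed point property from a suppression constant and a bound on averages of
weakly null sequences.
-/

open Set Filter Topology Metric Finset

namespace Vale.Agent.P079

variable {X : Type*} [NormedAddCommGroup X] [NormedSpace ℝ X] {ι : Type*}

/-- Gliding hump: a subsequence of a coordinatewise null sequence is close to disjoint blocks. -/
lemma gliding (e : ι → X) (f : ι → StrongDual ℝ X)
    (hexp : ∀ x, HasSum (fun i => f i x • e i) x) (a : ℕ → X)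
    (ha : ∀ g : StrongDual ℝ X, Tendsto (fun k => g (a k)) atTop (𝓝 0)) :
    ∃ (φ : ℕ → ℕ) (G : ℕ → Finset ι), StrictMono φ ∧
      (∀ i j, i ≠ j → Disjoint (G i) (G j)) ∧
      Tendsto (fun j => ‖a (φ j) - ∑ i ∈ G j, f i (a (φ j)) • e i‖) atTop (𝓝 0) := by
  classical
  have step : ∀ (F : Finset ι) (M : ℕ) (ε : ℝ), 0 < ε → ∃ k > M, ∃ F' : Finset ι, F ⊆ F' ∧
      ‖a k - ∑ i ∈ F' \ F, f i (a k) • e i‖ ≤ ε := by
    intro F M ε hε
    have h1 : Tendsto (fun k => ∑ i ∈ F, f i (a k) • e i) atTop (𝓝 0) := by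
      have := tendsto_finsetSum F fun i _ => (ha (f i)).smul_const (e i)
      simpa using this
    obtain ⟨k, hk, hkM⟩ := ((h1.norm.eventually (eventually_le_nhds
      (show ‖(0 : X)‖ < ε / 2 by simpa using half_pos hε))).and (eventually_gt_atTop M)).exists
    obtain ⟨F', hF'⟩ := Filter.eventually_atTop.1 <|
      (tendsto_iff_norm_sub_tendsto_zero.1 (hexp (a k))).eventually
        (eventually_le_nhds (half_pos hε))
    refine ⟨k, hkM, F ∪ F', Finset.subset_union_left, ?_⟩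
    have h2 := hF' (F ∪ F') Finset.subset_union_right
    rw [← Finset.sum_sdiff (f := fun i => f i (a k) • e i)
      (Finset.subset_union_left : F ⊆ F ∪ F'), norm_sub_rev] at h2
    refine le_trans ?_ (add_halves ε).le
    calc ‖a k - ∑ i ∈ (F ∪ F') \ F, f i (a k) • e i‖
        = ‖(a k - (∑ i ∈ (F ∪ F') \ F, f i (a k) • e i + ∑ i ∈ F, f i (a k) • e i))
            + ∑ i ∈ F, f i (a k) • e i‖ := by congr 1; abel
      _ ≤ ε / 2 + ε / 2 := (norm_add_le _ _).trans (add_le_add h2 hk)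
  choose k hk F' hsub hclose using step
  let st : ℕ → ℕ × Finset ι := fun j => Nat.rec (0, ∅)
    (fun j p => (k p.2 p.1 (1 / ((j : ℝ) + 1)) (by positivity),
      F' p.2 p.1 (1 / ((j : ℝ) + 1)) (by positivity))) j
  have hmono : Monotone fun j => (st j).2 := monotone_nat_of_le_succ fun j => hsub _ _ _ _
  refine ⟨fun j => (st (j + 1)).1, fun j => (st (j + 1)).2 \ (st j).2,
    strictMono_nat_of_lt_succ fun j => hk _ _ _ _, ?_, ?_⟩
  · have hlt : ∀ i j, i < j → Disjoint ((st (i + 1)).2 \ (st i).2) ((st (j + 1)).2 \ (st j).2) :=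
      fun i j hij => Finset.disjoint_left.2 fun x hx hx' =>
        (Finset.mem_sdiff.1 hx').2 (hmono (show i + 1 ≤ j by omega) (Finset.mem_sdiff.1 hx).1)
    intro i j hij
    rcases hij.lt_or_gt with h | h
    · exact hlt i j h
    · exact (hlt j i h).symm
  · exact squeeze_zero (fun j => norm_nonneg _) (fun j => hclose _ _ _ _)
      tendsto_one_div_add_atTop_nhds_zero_nat

/-- Blocks that are pairwise disjoint carry little of a fixed vector. -/
lemma blocks_small (e : ι → X) (f : ι → StrongDual ℝ X)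
    (hexp : ∀ x, HasSum (fun i => f i x • e i) x) (G : ℕ → Finset ι)
    (hG : ∀ i j, i ≠ j → Disjoint (G i) (G j)) (w : X) :
    Tendsto (fun j => ‖∑ i ∈ G j, f i w • e i‖) atTop (𝓝 0) := by
  classical
  rw [Metric.tendsto_nhds]
  intro ε hε
  obtain ⟨F, hF⟩ := (hexp w).summable.vanishing (Metric.ball_mem_nhds (0 : X) hε)
  have hev : ∀ᶠ j in atTop, ∀ i ∈ F, i ∉ G j := by
    rw [eventually_all_finset]
    intro i _
    by_cases h : ∃ j, i ∈ G j
    · obtain ⟨j, hj⟩ := h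
      filter_upwards [eventually_gt_atTop j] with l hl hil
      exact Finset.disjoint_left.1 (hG j l hl.ne) hj hil
    · exact Eventually.of_forall fun j hj => h ⟨j, hj⟩
  filter_upwards [hev] with j hj
  have := hF (G j) (Finset.disjoint_right.2 fun i hi => hj i hi)
  simpa using this

/-- The sharp form of the estimate: a point close to `n` vectors living on disjoint blocks, and
small on their union, is small. -/
lemma block_bound (e : ι → X) (f : ι → StrongDual ℝ X) {c : ℝ}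
    (hexp : ∀ x, HasSum (fun i => f i x • e i) x)
    (hsupp : ∀ x (A : Finset ι), ‖∑ i ∈ A, f i x • e i‖ ≤ c * ‖x‖)
    {κ : Type*} (s : Finset κ) (G : κ → Finset ι)
    (hG : ∀ i ∈ s, ∀ j ∈ s, i ≠ j → Disjoint (G i) (G j)) (b : κ → X) (v w : X) :
    (s.card : ℝ) * ‖v‖ ≤ c * (∑ j ∈ s, ‖v - b j‖) + c * ‖v - w‖
      + ∑ j ∈ s, ‖b j - ∑ i ∈ G j, f i (b j) • e i‖
      + ∑ j ∈ s, ‖∑ i ∈ G j, f i w • e i‖ := by
  classical
  set P : κ → X → X := fun j x => ∑ i ∈ G j, f i x • e i with hP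
  have hPsub : ∀ j x y, P j (x - y) = P j x - P j y := fun j x y => by
    simp [hP, sub_smul, Finset.sum_sub_distrib]
  have hcomp : ∀ j x, ‖x - P j x‖ ≤ c * ‖x‖ := by
    intro j x
    have h1 : Tendsto (fun F : Finset ι => ‖∑ i ∈ F, f i x • e i - P j x‖) atTop
        (𝓝 ‖x - P j x‖) := ((hexp x).sub_const _).norm
    refine le_of_tendsto h1 ?_
    filter_upwards [eventually_ge_atTop (G j)] with F hF
    simp only [hP]
    rw [← Finset.sum_sdiff (f := fun i => f i x • e i) hF, add_sub_cancel_right]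
    exact hsupp x _
  have hU : ‖∑ j ∈ s, P j (v - w)‖ ≤ c * ‖v - w‖ := by
    simp only [hP]
    rw [← Finset.sum_biUnion fun i hi j hj hij => hG i hi j hj hij]
    exact hsupp _ _
  have hid : (s.card : ℝ) • v = ∑ j ∈ s, ((v - b j) - P j (v - b j))
      + ∑ j ∈ s, (b j - P j (b j)) + ∑ j ∈ s, P j (v - w) + ∑ j ∈ s, P j w := by
    rw [← Finset.sum_add_distrib, ← Finset.sum_add_distrib, ← Finset.sum_add_distrib,
      Nat.cast_smul_eq_nsmul, ← Finset.sum_const]
    refine Finset.sum_congr rfl fun j _ => ?_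
    rw [hPsub, hPsub]
    abel
  have : (s.card : ℝ) * ‖v‖ = ‖(s.card : ℝ) • v‖ := by rw [norm_smul]; simp
  rw [this, hid, Finset.mul_sum]
  refine (norm_add_le _ _).trans (add_le_add ?_ (norm_sum_le _ _))
  refine (norm_add_le _ _).trans ?_
  refine le_trans (add_le_add ((norm_add_le _ _).trans (add_le_add
    ((norm_sum_le _ _).trans (Finset.sum_le_sum fun j _ => hcomp j _)) (norm_sum_le _ _))) hU) ?_
  linarith

/-- The fixed point property for reflexive spaces with a suppression constant and short averages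
of weakly null sequences. -/
theorem fixed_point [CompleteSpace X]
    (hsurj : Function.Surjective (NormedSpace.inclusionInDoubleDual ℝ X))
    (e : ι → X) (f : ι → StrongDual ℝ X) (hexp : ∀ x, HasSum (fun i => f i x • e i) x)
    {c : ℝ} (hc : 0 ≤ c) (hsupp : ∀ x (A : Finset ι), ‖∑ i ∈ A, f i x • e i‖ ≤ c * ‖x‖)
    (havg : ∀ a : ℕ → X, (∀ k, ‖a k‖ ≤ 1) → (∀ k l, ‖a k - a l‖ ≤ 1) →
      (∀ g : StrongDual ℝ X, Tendsto (fun k => g (a k)) atTop (𝓝 0)) →
      ∃ (n : ℕ) (θ : ℝ), 0 < n ∧ c * ((n : ℝ) - 1 + θ) < n ∧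
        ∀ N, ∃ s : Finset ℕ, s.card = n ∧ (∀ k ∈ s, N ≤ k) ∧
          ‖(n : ℝ)⁻¹ • ∑ k ∈ s, a k‖ ≤ θ)
    {C : Set X} (hCne : C.Nonempty) (hCc : IsClosed C) (hCv : Convex ℝ C)
    (hCb : Bornology.IsBounded C) (T : X → X) (hT : MapsTo T C C)
    (hlip : ∀ a ∈ C, ∀ b ∈ C, ‖T a - T b‖ ≤ ‖a - b‖) : ∃ x ∈ C, T x = x := by
  classical
  obtain ⟨S, hSC, h1, h2, h3, h4, h5⟩ := exists_minimal hsurj hCc hCv hCb hCne T hT
  have hS : MinimalSet T S :=
    ⟨h1, h2, hCb.subset hSC, h3, h4, fun a ha b hb => hlip a (hSC ha) b (hSC hb), h5⟩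
  have hsub : ∀ x : ℕ → X, (∀ k, x k ∈ S) → ∃ z ∈ S, ∃ φ : ℕ → ℕ, StrictMono φ ∧
      ∀ g : StrongDual ℝ X, Tendsto (fun k => g (x (φ k))) atTop (𝓝 (g z)) := fun x hx =>
    exists_weak_subseq e f hexp (weak_compact hsurj h1 h2 hS.bdd) hS.bdd x hx
  set d := diam S with hd
  obtain ⟨p0, hp0⟩ := h3
  rcases (Metric.diam_nonneg : 0 ≤ d).eq_or_lt with hd0 | hdpos
  · refine ⟨p0, hSC hp0, eq_of_sub_eq_zero (norm_le_zero_iff.1 ?_)⟩
    exact (hS.norm_sub_le (h4 hp0) hp0).trans_eq hd0.symm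
  -- an approximate fixed point sequence with a weak limit
  choose q hqS hqT _ _ using fun k : ℕ => hS.resolvent (s := 1 / ((k : ℝ) + 2)) (by positivity)
    (by rw [div_lt_one (by positivity)]; linarith [(Nat.cast_nonneg k : (0 : ℝ) ≤ k)]) hp0
  obtain ⟨z, hz, ψ, hψ, hweak⟩ := hsub q hqS
  set x := fun k => q (ψ k) with hx
  have hxT : Tendsto (fun k => ‖T (x k) - x k‖) atTop (𝓝 0) := by
    refine squeeze_zero (fun k => norm_nonneg _) (fun k => hqT (ψ k)) ?_
    have : Tendsto (fun k : ℕ => (1 : ℝ) / ((k : ℝ) + 2)) atTop (𝓝 0) :=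
      tendsto_const_nhds.div_atTop (tendsto_atTop_add_const_right _ _ tendsto_natCast_atTop_atTop)
    simpa using (this.comp hψ.tendsto_atTop).mul_const d
  set a := fun k => d⁻¹ • (x k - z) with ha
  have hweak0 : ∀ g : StrongDual ℝ X, Tendsto (fun k => g (a k)) atTop (𝓝 0) := by
    intro g
    simpa [ha, hx] using (((hweak g).sub_const (g z)).const_mul d⁻¹)
  obtain ⟨φ, G, hφ, hGd, hGlim⟩ := gliding e f hexp a hweak0
  have hdi : 0 ≤ d⁻¹ := inv_nonneg.2 hdpos.le
  obtain ⟨n, θ, hnθ0, hnθ, hN⟩ := havg (fun j => a (φ j))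
    (fun k => by
      rw [ha, norm_smul, Real.norm_of_nonneg hdi, inv_mul_le_iff₀ hdpos, mul_one]
      exact hS.norm_sub_le (hqS _) hz)
    (fun k l => by
      rw [ha, ← smul_sub, sub_sub_sub_cancel_right, norm_smul, Real.norm_of_nonneg hdi,
        inv_mul_le_iff₀ hdpos, mul_one]
      exact hS.norm_sub_le (hqS _) (hqS _))
    (fun g => (hweak0 g).comp hφ.tendsto_atTop)
  have hnR : (0 : ℝ) < n := Nat.cast_pos.2 hnθ0
  set κ := d * ((n : ℝ) - c * ((n : ℝ) - 1 + θ)) with hκ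
  have hκpos : 0 < κ := mul_pos hdpos (by linarith)
  obtain ⟨δ, hδ, hδd⟩ := hS.karlovitz hsub hz (η := κ / (4 * n)) (by positivity)
  -- the scale of the contraction
  set s : ℝ := min (1 / 2) (δ / d) with hs
  have hs0 : 0 < s := lt_min (by norm_num) (div_pos hδ hdpos)
  have hs1 : s < 1 := lt_of_le_of_lt (min_le_left _ _) (by norm_num)
  have hsd : s * d ≤ δ := by
    calc s * d ≤ δ / d * d := mul_le_mul_of_nonneg_right (min_le_right _ _) hdpos.le
      _ = δ := div_mul_cancel₀ δ hdpos.ne'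
  obtain ⟨w, hwS, -, hw, -⟩ := hS.resolvent hs0 hs1 hz
  set L : ℕ → ℝ := fun j => c * ((1 - s) / s * ‖T (x (φ j)) - x (φ j)‖)
    + d * ‖a (φ j) - ∑ i ∈ G j, f i (a (φ j)) • e i‖ + ‖∑ i ∈ G j, f i (w - z) • e i‖ with hL
  have hL0 : Tendsto L atTop (𝓝 0) := by
    simpa [hL] using ((((hxT.comp hφ.tendsto_atTop).const_mul ((1 - s) / s)).const_mul c).add
      (hGlim.const_mul d)).add (blocks_small e f hexp G hGd (w - z))
  obtain ⟨N, hNL⟩ := eventually_atTop.1
    (hL0.eventually (eventually_le_nhds (show (0 : ℝ) < κ / (4 * n) by positivity)))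
  obtain ⟨I, hIc, hIN, hIθ⟩ := hN N
  set p := (n : ℝ)⁻¹ • ∑ j ∈ I, x (φ j) with hp
  have hpS : p ∈ S := by
    rw [hp, Finset.smul_sum]
    exact h2.sum_mem (fun _ _ => by positivity)
      (by simp [hIc, mul_inv_cancel₀ hnR.ne']) (fun j _ => hqS _)
  obtain ⟨u, huS, huT, hu, hux⟩ := hS.resolvent hs0 hs1 hpS
  have hlow : d - κ / (4 * n) ≤ ‖u - z‖ := hδd u huS (huT.trans hsd)
  -- `u` is close to the blocks
  have hpj : ∀ j ∈ I, ‖p - x (φ j)‖ ≤ ((n : ℝ) - 1) / n * d := by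
    intro j hj
    have e1 : p - x (φ j) = (n : ℝ)⁻¹ • ∑ i ∈ I, (x (φ i) - x (φ j)) := by
      rw [Finset.sum_sub_distrib, Finset.sum_const, hIc, smul_sub, ← Nat.cast_smul_eq_nsmul ℝ,
        smul_smul, inv_mul_cancel₀ hnR.ne', one_smul]
    rw [e1, norm_smul, Real.norm_of_nonneg (inv_nonneg.2 hnR.le), div_mul_eq_mul_div,
      inv_mul_le_iff₀ hnR, mul_div_cancel₀ _ hnR.ne']
    refine (norm_sum_le _ _).trans ?_
    rw [← Finset.add_sum_erase I _ hj, sub_self, norm_zero, zero_add]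
    refine (Finset.sum_le_card_nsmul _ _ d fun i _ => hS.norm_sub_le (hqS _) (hqS _)).trans ?_
    rw [Finset.card_erase_of_mem hj, hIc, nsmul_eq_mul, Nat.cast_sub hnθ0, Nat.cast_one]
  have hd' : d ≠ 0 := hdpos.ne'
  have hpz : ‖p - z‖ ≤ θ * d := by
    have e1 : p - z = d • ((n : ℝ)⁻¹ • ∑ j ∈ I, a (φ j)) := by
      simp only [ha]
      rw [← Finset.smul_sum, smul_comm d, smul_smul d, mul_inv_cancel₀ hd', one_smul,
        Finset.sum_sub_distrib, Finset.sum_const, hIc, smul_sub, ← Nat.cast_smul_eq_nsmul ℝ,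
        smul_smul, inv_mul_cancel₀ hnR.ne', one_smul]
    rw [e1, norm_smul, Real.norm_of_nonneg hdpos.le, mul_comm θ]
    exact mul_le_mul_of_nonneg_left hIθ hdpos.le
  have huw : ‖(u - z) - (w - z)‖ ≤ θ * d := by
    rw [sub_sub_sub_cancel_right]
    refine le_trans ?_ hpz
    have e1 : u - w = (1 - s) • (T u - T w) + s • (p - z) := by
      conv_lhs => rw [hu, hw]
      rw [smul_sub, smul_sub]
      abel
    have h6 : ‖u - w‖ ≤ (1 - s) * ‖u - w‖ + s * ‖p - z‖ := by
      conv_lhs => rw [e1]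
      refine (norm_add_le _ _).trans (add_le_add ?_ ?_)
      · rw [norm_smul, Real.norm_of_nonneg (by linarith : (0 : ℝ) ≤ 1 - s)]
        exact mul_le_mul_of_nonneg_left (hS.lip u huS w hwS) (by linarith)
      · rw [norm_smul, Real.norm_of_nonneg hs0.le]
    exact le_of_mul_le_mul_left (by linarith) hs0
  have key := block_bound e f hexp hsupp I G (fun i _ j _ hij => hGd i j hij)
    (fun j => x (φ j) - z) (u - z) (w - z)
  rw [hIc] at key
  have hb : ∀ j ∈ I, c * ‖(u - z) - (x (φ j) - z)‖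
      + ‖(x (φ j) - z) - ∑ i ∈ G j, f i (x (φ j) - z) • e i‖
      + ‖∑ i ∈ G j, f i (w - z) • e i‖ ≤ c * (((n : ℝ) - 1) / n * d) + κ / (4 * n) := by
    intro j hj
    have e1 : (x (φ j) - z) - ∑ i ∈ G j, f i (x (φ j) - z) • e i
        = d • (a (φ j) - ∑ i ∈ G j, f i (a (φ j)) • e i) := by
      have hxa : x (φ j) - z = d • a (φ j) := by
        simp only [ha]
        rw [smul_smul, mul_inv_cancel₀ hd', one_smul]
      simp only [hxa, map_smul, smul_eq_mul, smul_sub, Finset.smul_sum, smul_smul]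
    rw [e1, norm_smul, Real.norm_of_nonneg hdpos.le, sub_sub_sub_cancel_right]
    have h6 := hNL j (hIN j hj)
    simp only [hL] at h6
    have := mul_le_mul_of_nonneg_left ((hux _ (hqS (ψ (φ j)))).trans
      (add_le_add (hpj j hj) le_rfl)) hc
    rw [mul_add] at this
    linarith
  have hsum := Finset.sum_le_sum hb
  rw [Finset.sum_add_distrib, Finset.sum_add_distrib, ← Finset.mul_sum, Finset.sum_const, hIc,
    nsmul_eq_mul] at hsum
  have e2 : (n : ℝ) * (c * (((n : ℝ) - 1) / n * d) + κ / (4 * n))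
      = c * ((n : ℝ) - 1) * d + κ / 4 := by field_simp
  have e3 : (n : ℝ) * (d - κ / (4 * n)) = n * d - κ / 4 := by field_simp
  have h7 := mul_le_mul_of_nonneg_left hlow hnR.le
  have h8 := mul_le_mul_of_nonneg_left huw hc
  rw [e3] at h7
  rw [e2] at hsum
  have : κ = n * d - c * ((n : ℝ) - 1) * d - c * (θ * d) := by rw [hκ]; ring
  linarith

/-- The weak Banach-Saks property gives short far-out averages of norm at most one half. -/
lemma averages_of_banachSaks
    (hbs : ∀ a : ℕ → X, (∀ g : StrongDual ℝ X, Tendsto (fun k => g (a k)) atTop (𝓝 0)) →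
      ∃ φ : ℕ → ℕ, StrictMono φ ∧
        Tendsto (fun m : ℕ => ‖(m : ℝ)⁻¹ • ∑ j ∈ range m, a (φ j)‖) atTop (𝓝 0))
    (a : ℕ → X) (ha : ∀ g : StrongDual ℝ X, Tendsto (fun k => g (a k)) atTop (𝓝 0)) :
    ∃ (n : ℕ) (θ : ℝ), 0 < n ∧ (1 : ℝ) * ((n : ℝ) - 1 + θ) < n ∧
      ∀ N, ∃ s : Finset ℕ, s.card = n ∧ (∀ k ∈ s, N ≤ k) ∧
        ‖(n : ℝ)⁻¹ • ∑ k ∈ s, a k‖ ≤ θ := by
  by_contra hcon
  push Not at hcon
  choose N hN using fun n : ℕ => hcon (n + 1) (1 / 2) n.succ_pos (by linarith)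
  let t : ℕ → ℕ := fun j => j + ∑ i ∈ range (j + 1), N i
  have ht : StrictMono t := strictMono_nat_of_lt_succ fun j => by
    simp only [t, Finset.sum_range_succ _ (j + 1)]; omega
  obtain ⟨φ, hφ, hlim⟩ := hbs (fun j => a (t j)) fun g => (ha g).comp ht.tendsto_atTop
  obtain ⟨M0, hM0⟩ := eventually_atTop.1
    (hlim.eventually (eventually_le_nhds (show (0 : ℝ) < 1 / 8 by norm_num)))
  set M := M0 + 1 with hM
  set s := (Finset.Ico M (M + M)).image fun j => t (φ j) with hs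
  have hinj : Function.Injective fun j => t (φ j) := (ht.comp hφ).injective
  have hcard : s.card = M := by
    rw [hs, Finset.card_image_of_injective _ hinj, Nat.card_Ico]; omega
  have hfar : ∀ k ∈ s, N M0 ≤ k := by
    intro k hk
    obtain ⟨j, hj, rfl⟩ := Finset.mem_image.1 hk
    have h1 : M0 ≤ φ j := by
      have := hφ.id_le j
      have := (Finset.mem_Ico.1 hj).1
      simp only [id_eq] at *; omega
    have : N M0 ≤ ∑ i ∈ range (φ j + 1), N i :=
      Finset.single_le_sum (fun i _ => Nat.zero_le _) (Finset.mem_range.2 (by omega))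
    simp only [t]; omega
  have hlt := hN M0 s hcard hfar
  rw [hs, Finset.sum_image (f := a) (fun i _ j _ h => hinj h)] at hlt
  have hMR : (0 : ℝ) < M := by rw [hM]; push_cast; positivity
  have e : ((M0 + 1 : ℕ) : ℝ)⁻¹ • ∑ j ∈ Finset.Ico M (M + M), a (t (φ j))
      = (2 : ℝ) • (((M + M : ℕ) : ℝ)⁻¹ • ∑ j ∈ range (M + M), a (t (φ j)))
        - (M : ℝ)⁻¹ • ∑ j ∈ range M, a (t (φ j)) := by
    rw [Finset.sum_Ico_eq_sub _ (show M ≤ M + M by omega), smul_sub, smul_smul, ← hM]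
    congr 2
    push_cast
    field_simp
    ring
  have h2 : ‖((M0 + 1 : ℕ) : ℝ)⁻¹ • ∑ j ∈ Finset.Ico M (M + M), a (t (φ j))‖ ≤ 3 / 8 := by
    rw [e]
    refine (norm_sub_le _ _).trans ?_
    rw [norm_smul (2 : ℝ), Real.norm_of_nonneg (by norm_num : (0 : ℝ) ≤ 2)]
    have := hM0 (M + M) (by omega)
    have := hM0 M (by omega)
    linarith
  linarith

end Vale.Agent.P079
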